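import Vale.Agent.P227.Final.Defs
import Vale.Agent.P227.ZonoidMain
import Vale.Agent.P227.T1.Biorth
import Vale.Agent.P227.Loc.Main

open MeasureTheory Filter Topology

namespace Vale.Agent.P227.Final

variable {n : ℕ}

lemma scb {K : Set (E n)} (h : SymConvexBody K) : Vale.Agent.P227.SymConvexBody K :=
  ⟨h.convex, h.isCompact, h.nonempty_interior, h.symm⟩

lemma evol_eq (K : Set (E n)) : evol K = Vale.Agent.P227.evol K := rfl

lemma supportFn_eq (K : Set (E n)) (u : E n) : supportFn K u = Vale.Agent.P227.supportFn K u := rfl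

lemma logComb_eq (t : ℝ) (K L : Set (E n)) : logComb t K L = Vale.Agent.P227.logComb t K L := rfl

lemma zonoid {K : Set (E n)} (h : IsZonoid K) : Vale.Agent.P227.IsZonoid K := h

lemma coneNormal_iff {K : Set (E n)} (hK : SymConvexBody K) (ν : E n → E n) :
    IsConeNormal K ν ↔ Vale.Agent.P227.IsConeNormal K ν := by
  unfold IsConeNormal Vale.Agent.P227.IsConeNormal
  refine and_congr_right fun _ => ?_
  have hfin : volume K < ⊤ := hK.isCompact.measure_lt_top
  have hmeas : MeasurableSet K := hK.isCompact.measurableSet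
  rw [ae_iff, Measure.restrict_apply' hmeas]
  have hset : {x ∈ K | ¬ (‖ν x‖ = 1 ∧ ip x (ν x) = gauge K x * supportFn K (ν x))} =
      {a | ¬ (‖ν a‖ = 1 ∧ inner ℝ a (ν a) = gauge K a * Vale.Agent.P227.supportFn K (ν a))} ∩ K := by
    ext x
    exact and_comm
  have hle : volume ({a | ¬ (‖ν a‖ = 1 ∧ inner ℝ a (ν a) =
      gauge K a * Vale.Agent.P227.supportFn K (ν a))} ∩ K) ≠ ⊤ :=
    ((measure_mono Set.inter_subset_right).trans_lt hfin).ne
  unfold evol vol
  rw [hset, ENNReal.toReal_eq_zero_iff]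
  exact ⟨fun h => h.resolve_right hle, fun h => Or.inl h⟩

theorem part1 (n : ℕ) (K L : Set (E n)) (t : ℝ) (hK : SymConvexBody K) (hL : SymConvexBody L)
    (ht0 : 0 ≤ t) (ht1 : t ≤ 1) (hz : IsZonoid (logComb t K L)) :
    evol K ^ (1 - t) * evol L ^ t ≤ evol (logComb t K L) :=
  Vale.Agent.P227.log_bm_zonoid (scb hK) (scb hL) ht0 ht1 hz

theorem part2 (n : ℕ) (K L : Set (E n)) (hn : 0 < n) (hK : SymConvexBody K) (hz : IsZonoid K)
    (hL : SymConvexBody L) :
    (∃ ν, IsConeNormal K ν) ∧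
      ∀ ν, IsConeNormal K ν → evol K / n * Real.log (evol L / evol K) ≤ coneLogInt K L ν := by
  refine ⟨?_, fun ν hν => ?_⟩
  · obtain ⟨ν, hν⟩ := Vale.Agent.P227.exists_measurable_normal hn (scb hK)
    exact ⟨ν, (coneNormal_iff hK ν).2 hν⟩
  · exact Vale.Agent.P227.log_minkowski_zonoid hn (scb hK) hz (scb hL) ν
      ((coneNormal_iff hK ν).1 hν).2

theorem part3 (m : ℕ) (v w : Fin m → E (m + 2)) (K L : Set (E (m + 2)))
    (hK : SymConvexBody K) (hL : SymConvexBody L) (rK : Invariant v w K) (rL : Invariant v w L)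
    (t : ℝ) (ht0 : 0 ≤ t) (ht1 : t ≤ 1) :
    evol K ^ (1 - t) * evol L ^ t ≤ evol (logComb t K L) := by
  have h := Vale.Agent.P227.T1.main_biorth v w rK.biorth K L (scb hK) (scb hL) rK.mem rL.mem t
    ⟨ht0, ht1⟩
  have hfin : volume (Vale.Agent.P227.logComb t K L) ≠ ⊤ :=
    (Vale.Agent.P227.logComb_facts (by omega) (scb hK) (scb hL) ht0
      ht1).1.isCompact.measure_lt_top.ne
  have h2 := ENNReal.toReal_mono hfin h
  rw [ENNReal.toReal_mul, ← ENNReal.toReal_rpow, ← ENNReal.toReal_rpow] at h2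
  exact h2

theorem part4 (m : ℕ) (v w : Fin (m + 2) → E (m + 2)) (K : Set (E (m + 2)))
    (hK : SymConvexBody K) (rK : Invariant v w K) (hC : C2Plus K) (g : E (m + 2) → ℝ)
    (hg : EvenSmooth g) :
    ∃ c : ℝ, 0 ≤ c ∧ ∀ l : ℝ, 0 ≤ l → l ≤ 1 → LimZero (deficit K g l) (l * (1 - l) * c) := by
  have hC' : Vale.Agent.P227.Loc.C2Plus K :=
    ⟨hC.smooth.smooth, hC.curv⟩
  obtain ⟨c, hc, h⟩ := Vale.Agent.P227.Loc.local_log_bm (scb hK) hC' v w rK.biorth rK.mem
    hg.smooth hg.even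
  exact ⟨c, hc, fun l _ _ => h l⟩

end Vale.Agent.P227.Final
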