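import Vale.Agent.P227.MathlibUsed

open MeasureTheory

namespace Vale.Agent.P227.Final

/-- Euclidean space. -/
abbrev E (n : ℕ) := EuclideanSpace ℝ (Fin n)

/-- Lebesgue measure. -/
noncomputable def vol (n : ℕ) : Measure (E n) := volume

/-- Volume as a real number. -/
noncomputable def evol {n : ℕ} (K : Set (E n)) : ℝ := (vol n K).toReal

/-- Euclidean inner product. -/
noncomputable def ip {n : ℕ} (x y : E n) : ℝ := inner ℝ x y

/-- Origin-symmetric convex body. -/
structure SymConvexBody {n : ℕ} (K : Set (E n)) : Prop where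
  convex : Convex ℝ K
  isCompact : IsCompact K
  nonempty_interior : (interior K).Nonempty
  symm : ∀ x ∈ K, -x ∈ K

/-- Support function. -/
noncomputable def supportFn {n : ℕ} (K : Set (E n)) (u : E n) : ℝ := sSup ((fun x => ip x u) '' K)

/-- Wulff body. -/
def wulff {n : ℕ} (f : E n → ℝ) : Set (E n) := {x | ∀ u, ‖u‖ = 1 → ip x u ≤ f u}

/-- Logarithmic combination. -/
noncomputable def logComb {n : ℕ} (t : ℝ) (K L : Set (E n)) : Set (E n) :=
  wulff (fun u => supportFn K u ^ (1 - t) * supportFn L u ^ t)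

/-- Zonotope: finite sum of segments. -/
def IsZonotope {n : ℕ} (Z : Set (E n)) : Prop :=
  ∃ (N : ℕ) (a b : Fin N → E n), Z = {x | ∃ y : Fin N → E n,
    (∀ j, y j ∈ segment ℝ (a j) (b j)) ∧ x = ∑ j, y j}

/-- Zonoid: Hausdorff limit of zonotopes. -/
def IsZonoid {n : ℕ} (K : Set (E n)) : Prop :=
  ∀ ε : ℝ, 0 < ε → ∃ Z : Set (E n), IsZonotope Z ∧ Metric.hausdorffDist K Z < ε

/-- `ν` is measurable and `ν x` is an outer unit normal of `K` at `x / ‖x‖_K` for almost every
`x` in `K`. -/
def IsConeNormal {n : ℕ} (K : Set (E n)) (ν : E n → E n) : Prop :=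
  Measurable ν ∧ evol {x ∈ K | ¬ (‖ν x‖ = 1 ∧ ip x (ν x) = gauge K x * supportFn K (ν x))} = 0

/-- The integral of `log (h_L / h_K)` against the cone-volume measure of `K`. -/
noncomputable def coneLogInt {n : ℕ} (K L : Set (E n)) (ν : E n → E n) : ℝ :=
  ∫ x in K, Real.log (supportFn L (ν x) / supportFn K (ν x)) ∂(vol n)

/-- The linear reflection `x ↦ x - 2 ⟨x, w⟩ v`. -/
noncomputable def reflection {n : ℕ} (v w x : E n) : E n := x - (2 * ip x w) • v

/-- `K` is invariant under the commuting reflections of the biorthogonal system `v`, `w`. -/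
structure Invariant {n m : ℕ} (v w : Fin m → E n) (K : Set (E n)) : Prop where
  biorth : ∀ i j, ip (v i) (w j) = if i = j then (1 : ℝ) else 0
  mem : ∀ i, ∀ x ∈ K, reflection (v i) (w i) x ∈ K

/-- Even and `C²` off the origin. -/
structure EvenSmooth {n : ℕ} (f : E n → ℝ) : Prop where
  even : ∀ u, f (-u) = f u
  smooth : ContDiffOn ℝ 2 f {u | u ≠ 0}

/-- Second derivative of `f` at `u` in direction `v`. -/
noncomputable def hess {n : ℕ} (f : E n → ℝ) (u v : E n) : ℝ :=
  deriv (fun r : ℝ => deriv (fun s : ℝ => f (u + s • v)) r) 0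

/-- `C²₊`. -/
structure C2Plus {n : ℕ} (K : Set (E n)) : Prop where
  smooth : EvenSmooth (supportFn K)
  curv : ∀ u v, u ≠ 0 → v ≠ 0 → ip u v = 0 → 0 < hess (supportFn K) u v

/-- The perturbed body `W[h_K + t g]`. -/
noncomputable def pertBody {n : ℕ} (K : Set (E n)) (g : E n → ℝ) (t : ℝ) : Set (E n) :=
  wulff (fun u => supportFn K u + t * g u)

/-- Normalised difference of the two sides of log-Brunn-Minkowski for `K`, `W[h_K + t g]`. -/
noncomputable def deficit {n : ℕ} (K : Set (E n)) (g : E n → ℝ) (l t : ℝ) : ℝ :=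
  (evol (logComb l K (pertBody K g t)) - evol K ^ (1 - l) * evol (pertBody K g t) ^ l) / t ^ 2

/-- `f t → a` as `t → 0`. -/
def LimZero (f : ℝ → ℝ) (a : ℝ) : Prop := Filter.Tendsto f (nhdsWithin 0 {0}ᶜ) (nhds a)

end Vale.Agent.P227.Final
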